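import Vale.Agent.P181.GK.Defs
import Vale.Agent.P181.R2.H182.V6
import Vale.Agent.P181.R2.H822.V5

set_option autoImplicit false

/-! GK, block G6: the polarised substitutions in the first two coordinates are jointly
injective. -/

open MvPolynomial

namespace Vale.Agent.P181.GK.H679

open Vale.Agent.P181.FR Vale.Agent.P181.VT Vale.Agent.P181.VT.V6H
open Vale.Agent.P181.H280 (IsBorel)

/-- A polynomial function on matrices which is homogeneous of degree `D` as a function lies in
`WW m D`. -/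
theorem WW_of_scale {m D : ℕ} (P : MvPolynomial (Fin m × Fin m) ℂ)
    (Φ : Matrix (Fin m) (Fin m) ℂ → ℂ)
    (hP : ∀ Z : Matrix (Fin m) (Fin m) ℂ, Φ Z = MvPolynomial.eval (fun u => Z u.1 u.2) P)
    (hs : ∀ (t : ℂ) (Z : Matrix (Fin m) (Fin m) ℂ), t ≠ 0 → Φ (t • Z) = t ^ D * Φ Z) :
    Φ ∈ WW m D := by
  classical
  have key : ∀ Z : Matrix (Fin m) (Fin m) ℂ,
      Φ Z = MvPolynomial.eval (fun u => Z u.1 u.2) (homogeneousComponent D P) := by
    intro Z
    set cc : ℕ → ℂ := fun d => MvPolynomial.eval (fun u => Z u.1 u.2) (homogeneousComponent d P)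
      with hcc
    have h1 : ∀ t : ℂ, Φ (t • Z) = ∑ d ∈ Finset.range (P.totalDegree + 1), t ^ d * cc d := by
      intro t
      rw [hP]
      conv_lhs => rw [← sum_homogeneousComponent P]
      rw [map_sum]
      apply Finset.sum_congr rfl
      intro d _
      have h3 : (fun u : Fin m × Fin m => (t • Z) u.1 u.2) =
          t • (fun u : Fin m × Fin m => Z u.1 u.2) := by
        funext u
        rfl
      rw [h3]
      have h4 : ∀ (Q : MvPolynomial (Fin m × Fin m) ℂ), Q.IsHomogeneous d →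
          ∀ x : Fin m × Fin m → ℂ, MvPolynomial.eval (t • x) Q = t ^ d * MvPolynomial.eval x Q := by
        intro Q hQ x
        rw [MvPolynomial.eval_eq', MvPolynomial.eval_eq', Finset.mul_sum]
        apply Finset.sum_congr rfl
        intro e he
        have h5 : ∑ u, e u = d := by
          have := hQ (MvPolynomial.mem_support_iff.mp he)
          rw [← this, Finsupp.weight_apply, Finsupp.sum_fintype]
          · simp
          · simp
        simp only [Pi.smul_apply, smul_eq_mul, mul_pow]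
        rw [Finset.prod_mul_distrib, Finset.prod_pow_eq_pow_sum, h5]
        ring
      exact h4 _ (homogeneousComponent_isHomogeneous d P) _
    let R : Polynomial ℂ := ∑ d ∈ Finset.range (P.totalDegree + 1),
      Polynomial.C (cc d) * Polynomial.X ^ d - Polynomial.C (Φ Z) * Polynomial.X ^ D
    have hR : ∀ t : ℂ, t ≠ 0 → R.eval t = 0 := by
      intro t ht
      have h2 : R.eval t = ∑ d ∈ Finset.range (P.totalDegree + 1), cc d * t ^ d -
          Φ Z * t ^ D := by
        simp only [R, Polynomial.eval_sub, Polynomial.eval_finsetSum, Polynomial.eval_mul,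
          Polynomial.eval_C, Polynomial.eval_pow, Polynomial.eval_X]
      rw [h2]
      have h3 := h1 t
      rw [hs t Z ht] at h3
      rw [mul_comm (Φ Z), h3, sub_eq_zero]
      apply Finset.sum_congr rfl
      intro d _
      ring
    have hR0 : R = 0 := by
      by_contra hne
      obtain ⟨t, ht⟩ := Polynomial.exists_eval_ne_zero_of_natDegree_lt_card
        (R * Polynomial.X) (mul_ne_zero hne Polynomial.X_ne_zero) (by
          rw [Cardinal.mk_complex]
          exact Cardinal.natCast_lt_aleph0.trans Cardinal.aleph0_lt_continuum)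
      rw [Polynomial.eval_mul, Polynomial.eval_X] at ht
      exact left_ne_zero_of_mul ht (hR t (right_ne_zero_of_mul ht))
    have h5 := congrArg (fun S : Polynomial ℂ => S.coeff D) hR0
    simp only [R, Polynomial.coeff_sub, Polynomial.finsetSum_coeff, Polynomial.coeff_C_mul,
      Polynomial.coeff_X_pow, Polynomial.coeff_zero, mul_ite, mul_one, mul_zero, if_true,
      Finset.sum_ite_eq] at h5
    by_cases hD : D ∈ Finset.range (P.totalDegree + 1)
    · rw [if_pos hD] at h5
      exact (sub_eq_zero.mp h5).symm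
    · rw [if_neg hD] at h5
      have h6 : P.totalDegree < D := by
        rw [Finset.mem_range] at hD
        omega
      rw [homogeneousComponent_eq_zero D P h6, map_zero]
      have h7 : Φ Z = 0 := by
        have := sub_eq_zero.mp h5
        exact this.symm
      exact h7
  have h8 : Φ = fun Z : Matrix (Fin m) (Fin m) ℂ =>
      MvPolynomial.eval (fun u => Z u.1 u.2) (homogeneousComponent D P) := funext key
  rw [h8]
  exact WW_of_hom m D _ (homogeneousComponent_isHomogeneous D P)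

/-- The substituted function is polynomial in the matrix. -/
theorem sub_poly {B n a : ℕ} {F : (Fin B → Fin (n + 2) → ℂ) → ℂ} (hF : F ∈ MP B (n + 2) a)
    (p : Fin B → Fin (n + 2) → ℂ) :
    ∃ P : MvPolynomial (Fin (1 + 1) × Fin (1 + 1)) ℂ,
      ∀ Z : Matrix (Fin (1 + 1)) (Fin (1 + 1)) ℂ,
        F (fun j => cb (Matrix.vecMul (xx p j) Z) (p j)) =
          MvPolynomial.eval (fun u => Z u.1 u.2) P := by
  classical
  induction hF using Submodule.span_induction with
  | mem F hF =>
    obtain ⟨q, hq, rfl⟩ := hF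
    refine ⟨∏ j, MvPolynomial.aeval (Fin.cons (∑ b, MvPolynomial.C (xx p j b) *
      MvPolynomial.X (b, 0)) (Fin.cons (∑ b, MvPolynomial.C (xx p j b) *
      MvPolynomial.X (b, 1)) fun i : Fin n => MvPolynomial.C (p j i.succ.succ)) :
        Fin (n + 2) → MvPolynomial (Fin (1 + 1) × Fin (1 + 1)) ℂ) (q j), fun Z => ?_⟩
    rw [map_prod]
    apply Finset.prod_congr rfl
    intro j _
    show _ = (MvPolynomial.eval _) (MvPolynomial.aeval _ (q j))
    rw [MvPolynomial.aeval_def, MvPolynomial.eval_eval₂]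
    rw [MvPolynomial.eval, MvPolynomial.coe_eval₂Hom]
    congr 1
    · ext x
      simp
    · funext i
      refine Fin.cases ?_ (fun i => ?_) i
      · simp [cb, Matrix.vecMul, dotProduct]
      · refine Fin.cases ?_ (fun i => ?_) i
        · simp [cb, Matrix.vecMul, dotProduct]
        · simp [cb]
  | zero => exact ⟨0, fun Z => by simp⟩
  | add F G _ _ hF hG =>
    obtain ⟨P, hP⟩ := hF
    obtain ⟨Q, hQ⟩ := hG
    exact ⟨P + Q, fun Z => by rw [Pi.add_apply, hP, hQ, map_add]⟩
  | smul c F _ hF =>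
    obtain ⟨P, hP⟩ := hF
    exact ⟨MvPolynomial.C c * P, fun Z => by
      rw [Pi.smul_apply, hP, map_mul, MvPolynomial.eval_C, smul_eq_mul]⟩

/-- The determinant is polynomial in the matrix. -/
theorem det_poly (s : ℕ) : ∃ P : MvPolynomial (Fin (1 + 1) × Fin (1 + 1)) ℂ,
    ∀ Z : Matrix (Fin (1 + 1)) (Fin (1 + 1)) ℂ,
      Z.det ^ s = MvPolynomial.eval (fun u => Z u.1 u.2) P := by
  refine ⟨(MvPolynomial.X (0, 0) * MvPolynomial.X (1, 1) -
    MvPolynomial.X (0, 1) * MvPolynomial.X (1, 0)) ^ s, fun Z => ?_⟩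
  rw [Matrix.det_fin_two]
  simp

theorem cb_smul {n : ℕ} (t : ℂ) (v : Fin (1 + 1) → ℂ) (u : Fin (n + 2) → ℂ) :
    cb (t • v) u = Matrix.vecMul (cb v u)
      (Matrix.diagonal (Fin.cons t (Fin.cons t fun _ : Fin n => 1))) := by
  funext i
  rw [Matrix.vecMul_diagonal]
  refine Fin.cases ?_ (fun i => ?_) i
  · simp [cb, mul_comm]
  · refine Fin.cases ?_ (fun i => ?_) i
    · simp [cb, mul_comm]
    · simp [cb]

theorem scale {B n : ℕ} {F : (Fin B → Fin (n + 2) → ℂ) → ℂ} {lam : Fin (n + 2) → ℕ}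
    (hF : HWF B (n + 2) lam F) (p : Fin B → Fin (n + 2) → ℂ) (t : ℂ) (ht : t ≠ 0)
    (Z : Matrix (Fin (1 + 1)) (Fin (1 + 1)) ℂ) :
    F (fun j => cb (Matrix.vecMul (xx p j) (t • Z)) (p j)) =
      t ^ (lam 0 + lam 1) * F (fun j => cb (Matrix.vecMul (xx p j) Z) (p j)) := by
  have h1 := hF (Matrix.diagonal (Fin.cons t (Fin.cons t fun _ : Fin n => 1))) ⟨by
      intro i j hij
      exact Matrix.diagonal_apply_ne _ (ne_of_gt hij), by
      intro i
      rw [Matrix.diagonal_apply_eq]
      refine Fin.cases ?_ (fun i => ?_) i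
      · simpa using ht
      · refine Fin.cases ?_ (fun i => ?_) i
        · simpa using ht
        · simp⟩ (fun j => cb (Matrix.vecMul (xx p j) Z) (p j))
  have h2 : (∏ i, (Matrix.diagonal (Fin.cons t (Fin.cons t fun _ : Fin n => 1)) :
      Matrix (Fin (n + 2)) (Fin (n + 2)) ℂ) i i ^ lam i) = t ^ (lam 0 + lam 1) := by
    rw [Fin.prod_univ_succ, Fin.prod_univ_succ]
    simp only [Matrix.diagonal_apply_eq, Fin.cons_zero, Fin.cons_succ, one_pow,
      Finset.prod_const_one, mul_one]
    rw [pow_add]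
    rfl
  rw [h2] at h1
  rw [← h1]
  congr 1
  funext j
  rw [← cb_smul, Matrix.vecMul_smul]

theorem cb_xx {B n : ℕ} (p : Fin B → Fin (n + 2) → ℂ) (j : Fin B) : cb (xx p j) (p j) = p j := by
  funext i
  refine Fin.cases ?_ (fun i => ?_) i
  · simp [cb, xx]
  · refine Fin.cases ?_ (fun i => ?_) i
    · simp [cb, xx]
    · simp [cb]

/-- **G6**. -/
theorem g6 : G6 := by
  classical
  intro k N n N0 N1 s c a τ α q z lam hpol hsep hs1 hD0
  obtain ⟨C, hC0, hC⟩ := v5 τ α q z hpol hsep
  obtain ⟨D, hD⟩ : ∃ D, D = k * nn 1 * c := ⟨_, rfl⟩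
  obtain ⟨M, hM⟩ : ∃ M, M = Module.finrank ℂ (WW (1 + 1) D) := ⟨_, rfl⟩
  have : Module.Finite ℂ (WW (1 + 1) D) := by
    unfold WW
    exact Module.Finite.span_of_finite ℂ (Set.finite_range _)
  let bs : Module.Basis (Fin M) ℂ (WW (1 + 1) D) :=
    (Module.finBasis ℂ (WW (1 + 1) D)).reindex (finCongr hM.symm)
  let w : Fin M → Matrix (Fin (1 + 1)) (Fin (1 + 1)) ℂ → ℂ := fun l => (bs l : _)
  have hwW : ∀ l, w l ∈ WW (1 + 1) D := fun l => (bs l).2
  have hwli : LinearIndependent ℂ w := by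
    have h1 := bs.linearIndependent
    exact h1.map' (WW (1 + 1) D).subtype (Submodule.ker_subtype _)
  obtain ⟨X, hX⟩ := exists_points w hwli
  have hYz : IsUnit (Yb z).det := isUnit_iff_ne_zero.mpr hsep.2.2.2.2
  refine ⟨M, fun l => (Yb z)⁻¹ * X l, ?_, ?_⟩
  · rw [hM, ← hD]
    exact WW_finrank (1 + 1) D
  intro F hF hW hF0 hsym
  obtain ⟨p1, hp1⟩ : ∃ p1, F p1 ≠ 0 := by
    by_contra hcon
    push Not at hcon
    exact hF0 (funext hcon)
  obtain ⟨p0, hp0⟩ : ∃ p0 : Fin (k * nn 1) → Fin (n + 2) → ℂ,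
      xx p0 = fun j => z (finProdFinEquiv.symm j).2 := by
    refine ⟨fun j => Fin.cons (z (finProdFinEquiv.symm j).2 0)
      (Fin.cons (z (finProdFinEquiv.symm j).2 1) fun _ => 0), ?_⟩
    funext j i
    refine Fin.cases ?_ (fun i => ?_) i
    · simp [xx]
    · rw [Subsingleton.elim i 0]
      simp [xx]
  let pl : ℂ → Fin (k * nn 1) → Fin (n + 2) → ℂ := fun s j i => p0 j i + s * (p1 j i - p0 j i)
  have hpl : ∀ j i, IsP (fun s => pl s j i) := fun j i =>
    (IsP.const _).add (IsP.id.mul (IsP.const _))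
  have hxpl : ∀ j i, IsP (fun s => xx (pl s) j i) := by
    intro j i
    refine Fin.cases ?_ (fun i => ?_) i
    · exact hpl j 0
    · exact hpl j 1
  have hpl0 : pl 0 = p0 := by
    funext j i
    simp [pl]
  have hpl1 : pl 1 = p1 := by
    funext j i
    simp [pl]
  -- the functionals
  let Lm : (Fin (k * nn 1) → Fin (1 + 1) → ℂ) → (Matrix (Fin (1 + 1)) (Fin (1 + 1)) ℂ → ℂ) → ℂ :=
    fun p Φ => ∑ σ : Equiv.Perm (Fin (k * nn 1)), QQ q (fun j => p (σ j)) *
      ∑ i, α i * Φ (YY (τ i) (fun j => p (σ j)))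
  let Mx : ℂ → Matrix (Fin M) (Fin M) ℂ := fun s =>
    Matrix.of (fun l k' => Lm (xx (pl s)) (fun Z => w k' (Z * ((Yb z)⁻¹ * X l))))
  have hMxP : IsP (fun s => (Mx s).det) := by
    apply IsP.det
    intro l k'
    show IsP (fun s => Lm (xx (pl s)) (fun Z => w k' (Z * ((Yb z)⁻¹ * X l))))
    apply IsP.sum
    intro σ _
    apply IsP.mul
    · unfold QQ
      apply IsP.prod
      intro β _
      exact IsP.mp hsep.1 (fun a b => hxpl _ _)
    · apply IsP.sum
      intro i _
      apply (IsP.const _).mul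
      apply WW_isP (1 + 1) D (hwW k')
      intro a b
      simp only [Matrix.mul_apply (M := YY _ _)]
      apply IsP.sum
      intro e _
      apply IsP.mul
      · exact IsP.yy _ (fun a b => hxpl _ _) a e
      · exact IsP.const _
  have hMx0 : (Mx 0).det ≠ 0 := by
    have h1 : Mx 0 = C • Matrix.of (fun l k' => w k' (X l)) := by
      ext l k'
      show Lm (xx (pl 0)) (fun Z => w k' (Z * ((Yb z)⁻¹ * X l))) = C * w k' (X l)
      rw [hpl0, hp0]
      have h2 := hC (fun Z => w k' (Z * ((Yb z)⁻¹ * X l))) (by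
        intro s Z
        rw [Matrix.smul_mul, ← hD]
        exact WW_smul (1 + 1) D (hwW k') s _)
      have h3 : Yb z * ((Yb z)⁻¹ * X l) = X l := by
        rw [← Matrix.mul_assoc, Matrix.mul_nonsing_inv _ hYz, Matrix.one_mul]
      rw [h3] at h2
      exact h2
    rw [h1, Matrix.det_smul]
    exact mul_ne_zero (pow_ne_zero _ hC0) hX
  have hFP : IsP (fun s => F (pl s)) := IsP.mp hF hpl
  obtain ⟨P1, hP1'⟩ := hMxP
  obtain ⟨P2, hP2'⟩ := hFP
  have hP1 : ∀ s, (Mx s).det = P1.eval s := hP1'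
  have hP2 : ∀ s, F (pl s) = P2.eval s := hP2'
  have hP10 : P1 ≠ 0 := by
    intro h
    apply hMx0
    rw [hP1 0, h, Polynomial.eval_zero]
  have hP20 : P2 ≠ 0 := by
    intro h
    apply hp1
    have := hP2 1
    rw [hpl1, h, Polynomial.eval_zero] at this
    exact this
  obtain ⟨t, ht⟩ := Polynomial.exists_eval_ne_zero_of_natDegree_lt_card (P1 * P2)
    (mul_ne_zero hP10 hP20) (by
      rw [Cardinal.mk_complex]
      exact Cardinal.natCast_lt_aleph0.trans Cardinal.aleph0_lt_continuum)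
  rw [Polynomial.eval_mul] at ht
  have ht1 : (Mx t).det ≠ 0 := by
    rw [hP1 t]
    exact left_ne_zero_of_mul ht
  have ht2 : F (pl t) ≠ 0 := by
    rw [hP2 t]
    exact right_ne_zero_of_mul ht
  by_contra hcon
  push Not at hcon
  -- the substituted function
  let Fp : Matrix (Fin (1 + 1)) (Fin (1 + 1)) ℂ → ℂ :=
    fun Z => Z.det ^ s * F (fun j => cb (Matrix.vecMul (xx (pl t) j) Z) (pl t j))
  have hFpW : Fp ∈ WW (1 + 1) D := by
    obtain ⟨Q1, hQ1⟩ := det_poly s
    obtain ⟨Q2, hQ2⟩ := sub_poly hF (pl t)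
    refine WW_of_scale (Q1 * Q2) Fp (fun Z => ?_) (fun u Z hu => ?_)
    · show Z.det ^ s * F (fun j => cb (Matrix.vecMul (xx (pl t) j) Z) (pl t j)) = _
      rw [map_mul, hQ1, hQ2]
    · show (u • Z).det ^ s * F (fun j => cb (Matrix.vecMul (xx (pl t) j) (u • Z)) (pl t j)) =
        u ^ D * (Z.det ^ s * F (fun j => cb (Matrix.vecMul (xx (pl t) j) Z) (pl t j)))
      rw [scale hW (pl t) u hu Z, Matrix.det_smul, Fintype.card_fin, hD, ← hD0]
      ring
  let b : Fin M → ℂ := fun l => bs.repr ⟨Fp, hFpW⟩ l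
  have hFa : Fp = ∑ l, b l • w l := by
    have h1 := bs.sum_repr ⟨Fp, hFpW⟩
    have h2 := congrArg (fun x : WW (1 + 1) D => x.1) h1
    simp only [Submodule.coe_sum, Submodule.coe_smul] at h2
    exact h2.symm
  have hLF : ∀ l, Lm (xx (pl t)) (fun Z => Fp (Z * ((Yb z)⁻¹ * X l))) = 0 := by
    intro l
    have h1 := hcon l (pl t)
    rw [← h1]
    apply Finset.sum_congr rfl
    intro σ _
    congr 1
    unfold TG
    apply Finset.sum_congr rfl
    intro i _
    congr 1
    show (YY (τ i) (fun j => xx (pl t) (σ j)) * ((Yb z)⁻¹ * X l)).det ^ s * _ = _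
    congr 1
    exact (hsym σ (fun j => cb (Matrix.vecMul (xx (pl t) j)
      (YY (τ i) (fun j => xx (pl t) (σ j)) * ((Yb z)⁻¹ * X l))) (pl t j))).symm
  have hLa : (Mx t).mulVec b = 0 := by
    funext l
    rw [Pi.zero_apply, ← hLF l]
    show ∑ k', Lm (xx (pl t)) (fun Z => w k' (Z * ((Yb z)⁻¹ * X l))) * b k' = _
    simp only [Lm]
    rw [hFa]
    simp only [Finset.sum_apply, Pi.smul_apply, smul_eq_mul]
    simp only [Finset.mul_sum, Finset.sum_mul]
    rw [Finset.sum_comm]
    apply Finset.sum_congr rfl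
    intro σ _
    rw [Finset.sum_comm]
    apply Finset.sum_congr rfl
    intro i _
    apply Finset.sum_congr rfl
    intro k' _
    ring
  have ha0 : b = 0 := Matrix.eq_zero_of_mulVec_eq_zero ht1 hLa
  apply ht2
  have h1 : Fp 1 = F (pl t) := by
    show (1 : Matrix (Fin (1 + 1)) (Fin (1 + 1)) ℂ).det ^ s *
      F (fun j => cb (Matrix.vecMul (xx (pl t) j) 1) (pl t j)) = F (pl t)
    simp only [Matrix.vecMul_one, Matrix.det_one, one_pow, one_mul]
    congr 1
    funext j
    exact cb_xx (pl t) j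
  rw [← h1, hFa, ha0]
  simp

end Vale.Agent.P181.GK.H679
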